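import Vale.Agent.P134.H160.Bd

set_option linter.all false

open MeasureTheory Filter Topology

/-!
Bounds (B1)-(B4) for the slice function, the vector field and the remainder.
-/

namespace Vale.Agent.P134.H160

open Vale.Agent.P134.H891 Vale.Agent.P134.H370

variable {m : ℕ} {p : Fin (m + 1)} {u : (Fin (m + 1) → ℝ) → ℝ} {a R H s : ℝ}

lemma hsl_eq_gst (p : Fin (m + 1)) (ζ : ℝ → ℝ) (a : ℝ) (u : (Fin (m + 1) → ℝ) → ℝ)
    (y : Fin m → ℝ) : hsl p ζ a u y = (Psi 1)⁻¹ * ∫ s, ζ s * gst u p a (ins p s y) := by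
  unfold hsl gst
  simp

lemma mul_gst_le (hu : Sol u) (hF : Flat u p a (4 * R) H) (hR : 0 < R) {y : Fin m → ℝ}
    (hy : esq y ≤ R ^ 2) (s : ℝ) :
    |zR R s * gst u p a (ins p s y)| ≤ BB (m + 1) a R H s := by
  by_cases h : 2 * R ^ 2 ≤ s ^ 2
  · rw [zR_zero hR h, zero_mul, abs_zero]
    exact BB_nonneg _ _ _ _ _
  · push Not at h
    rw [abs_mul, abs_of_nonneg (zR_nonneg R s)]
    have h1 := gst_le_BB hu hF hR (s := s) (y := y) (by rw [esq_ins]; nlinarith)
    calc zR R s * |gst u p a (ins p s y)| ≤ 1 * |gst u p a (ins p s y)| :=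
          mul_le_mul_of_nonneg_right (zR_le_one R s) (abs_nonneg _)
      _ ≤ _ := by rw [one_mul]; exact h1

/-- **(B1)** -/
theorem hsl_bd (p : Fin (m + 1)) : ∃ C : ℝ, 0 < C ∧ ∀ (u : (Fin (m + 1) → ℝ) → ℝ) (a R H : ℝ),
    Sol u → 0 < R → 0 ≤ H → Flat u p a (4 * R) H → ∀ y : Fin m → ℝ, esq y ≤ R ^ 2 →
    |hsl p (zR R) a u y| ≤ C * (1 + H) := by
  obtain ⟨n, hn⟩ : ∃ n : ℕ, n = m + 1 := ⟨_, rfl⟩
  have hP := Psi_one_pos
  refine ⟨(Psi 1)⁻¹ * (64 * n ^ 2 + 8 * n ^ 3 + 2), by positivity, ?_⟩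
  intro u a R H hu hR hH hF y hy
  rw [hsl_eq_gst, abs_mul, abs_of_pos (inv_pos.mpr hP), mul_assoc]
  apply mul_le_mul_of_nonneg_left _ (inv_pos.mpr hP).le
  have h1 : ‖∫ s, zR R s * gst u p a (ins p s y)‖ ≤ ∫ s, BB (m + 1) a R H s :=
    norm_integral_le_of_norm_le (BB_integrable _ _ _ _)
      (Eventually.of_forall fun s => by
        rw [Real.norm_eq_abs]; exact mul_gst_le hu hF hR hy s)
  rw [Real.norm_eq_abs] at h1
  have h2 := BB_integral (n := m + 1) (a := a) (by omega) hR hH
  have h3 : (0:ℝ) ≤ (64 * n ^ 2 + 8 * n ^ 3) * H := by positivity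
  rw [← hn] at h1 h2
  linarith

lemma gst_measurable (hu : Sol u) (p : Fin (m + 1)) (a : ℝ) : Measurable (gst u p a) := by
  unfold gst
  exact (Measurable.ite (measurableSet_lt measurable_const (measurable_pi_apply p))
    measurable_const measurable_const).sub (Psi_comp_contDiff hu).continuous.measurable

lemma mul_gst_integrable (hu : Sol u) (hR : 0 < R) (y : Fin m → ℝ) :
    Integrable fun s => zR R s * gst u p a (ins p s y) := by
  refine Integrable.mono' ((zR_contDiff R).continuous.integrable_of_hasCompactSupport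
    (zR_hasCompactSupport hR)) ?_ (Eventually.of_forall fun s => ?_)
  · exact ((zR_contDiff R).continuous.measurable.mul
      ((gst_measurable hu p a).comp (continuous_ins_left p y).measurable)).aestronglyMeasurable
  · rw [norm_mul, Real.norm_eq_abs, Real.norm_eq_abs, abs_of_nonneg (zR_nonneg R s)]
    calc zR R s * |gst u p a (ins p s y)| ≤ zR R s * 1 :=
          mul_le_mul_of_nonneg_left (gst_le_one hu p a _) (zR_nonneg R s)
      _ = zR R s := mul_one _

/-- The exponential factor in the transition region. -/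
lemma far_exp {n : ℕ} (hn : 0 < n) (hR : 0 < R) (hH : 0 ≤ H) (hHR : H ≤ R / 8) (ha : |a| ≤ H)
    (hs : R ≤ |s|) : H < |s - a| ∧ Real.exp (-(|s - a| - H)) + Real.exp (-(2 * (2 * R / n)))
      ≤ 2 * Real.exp (-(R / (2 * n))) := by
  have hn1 : (1:ℝ) ≤ n := by exact_mod_cast hn
  have hn0 : (0:ℝ) < n := by linarith
  have h1 : |s| ≤ |s - a| + |a| := by
    have := abs_add_le (s - a) a
    simpa using this
  have h2 : 3 / 4 * R ≤ |s - a| - H := by linarith
  have h3 : R / (2 * n) ≤ 3 / 4 * R := by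
    rw [div_le_iff₀ (by positivity)]
    nlinarith
  have h4 : R / (2 * n) ≤ 2 * (2 * R / n) := by
    have : 2 * (2 * R / n) = 8 * (R / (2 * n)) := by field_simp; ring
    rw [this]
    have : 0 ≤ R / (2 * n) := by positivity
    linarith
  refine ⟨by linarith, ?_⟩
  have h5 : Real.exp (-(|s - a| - H)) ≤ Real.exp (-(R / (2 * n))) :=
    Real.exp_le_exp.mpr (by linarith)
  have h6 : Real.exp (-(2 * (2 * R / n))) ≤ Real.exp (-(R / (2 * n))) :=
    Real.exp_le_exp.mpr (by linarith)
  linarith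

/-- **(B4)** -/
theorem hsl_sub (p : Fin (m + 1)) : ∃ C : ℝ, 0 < C ∧ ∀ (u : (Fin (m + 1) → ℝ) → ℝ) (a R H : ℝ),
    Sol u → 0 < R → 0 ≤ H → H ≤ R / 8 → |a| ≤ H → Flat u p a (4 * R) H →
    ∀ y : Fin m → ℝ, esq y ≤ R ^ 2 →
    |Psi 1 * hsl p (zR R) a u y - ∫ s in Set.Icc (-R) R, gst u p a (ins p s y)| ≤ C := by
  obtain ⟨n, hn⟩ : ∃ n : ℕ, n = m + 1 := ⟨_, rfl⟩
  have hn1 : (1:ℝ) ≤ n := by rw [hn]; push_cast; linarith [Nat.cast_nonneg (α := ℝ) m]
  have hn0 : (0:ℝ) < n := by linarith
  have hP := Psi_one_pos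
  refine ⟨64 * n ^ 3, by positivity, ?_⟩
  intro u a R H hu hR hH hHR ha hF y hy
  have hint := mul_gst_integrable (p := p) (a := a) hu hR y
  rw [hsl_eq_gst, ← mul_assoc, mul_inv_cancel₀ hP.ne', one_mul,
    ← integral_add_compl (measurableSet_Icc (a := -R) (b := R)) hint]
  have e1 : ∫ s in Set.Icc (-R) R, zR R s * gst u p a (ins p s y)
      = ∫ s in Set.Icc (-R) R, gst u p a (ins p s y) := by
    apply setIntegral_congr_fun measurableSet_Icc
    intro s hs
    simp only
    rw [zR_one hR (abs_le.mpr hs), one_mul]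
  rw [e1, add_sub_cancel_left]
  set K : ℝ := 4 * n ^ 2 * (2 * Real.exp (-(R / (2 * n)))) with hK
  have hK0 : 0 ≤ K := by positivity
  have hb : Integrable ((Set.Icc (-(2 * R)) (2 * R)).indicator fun _ : ℝ => K) :=
    (integrable_indicator_iff measurableSet_Icc).mpr (integrableOn_const (by simp))
  rw [← integral_indicator measurableSet_Icc.compl]
  have h1 : ‖∫ s, (Set.Icc (-R) R)ᶜ.indicator (fun s => zR R s * gst u p a (ins p s y)) s‖
      ≤ ∫ s, (Set.Icc (-(2 * R)) (2 * R)).indicator (fun _ : ℝ => K) s := by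
    apply norm_integral_le_of_norm_le hb
    refine Eventually.of_forall fun s => ?_
    by_cases hs : s ∈ (Set.Icc (-R) R)ᶜ
    · rw [Set.indicator_of_mem hs]
      have hs1 : R ≤ |s| := by
        by_contra hcon
        exact hs (abs_le.mp (not_le.mp hcon).le)
      by_cases h2 : 2 * R ^ 2 ≤ s ^ 2
      · rw [zR_zero hR h2, zero_mul, norm_zero]
        exact Set.indicator_nonneg (fun _ _ => hK0) s
      · push Not at h2
        have hs2 : s ∈ Set.Icc (-(2 * R)) (2 * R) := by
          rw [Set.mem_Icc, ← abs_le]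
          apply abs_le_of_sq_le_sq _ (by linarith)
          nlinarith
        rw [Set.indicator_of_mem hs2, norm_mul, Real.norm_eq_abs, Real.norm_eq_abs,
          abs_of_nonneg (zR_nonneg R s)]
        obtain ⟨f1, f2⟩ := far_exp (n := n) (s := s) (by omega) hR hH hHR ha hs1
        have h3 := gst_far hu hF hR (x := ins p s y) (by rw [esq_ins]; nlinarith) (by simpa using f1)
        rw [ins_same, ← hn] at h3
        calc zR R s * |gst u p a (ins p s y)| ≤ 1 * |gst u p a (ins p s y)| :=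
              mul_le_mul_of_nonneg_right (zR_le_one R s) (abs_nonneg _)
          _ = |gst u p a (ins p s y)| := one_mul _
          _ ≤ K := h3.trans (mul_le_mul_of_nonneg_left f2 (by positivity))
    · rw [Set.indicator_of_notMem hs, norm_zero]
      exact Set.indicator_nonneg (fun _ _ => hK0) s
  rw [Real.norm_eq_abs] at h1
  refine h1.trans ?_
  rw [integral_indicator measurableSet_Icc, setIntegral_const]
  have h2 : volume.real (Set.Icc (-(2 * R)) (2 * R)) = 4 * R := by
    simp only [Measure.real, Real.volume_Icc]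
    rw [ENNReal.toReal_ofReal (by linarith)]; ring
  rw [h2, smul_eq_mul]
  have h3 := mul_exp_neg_le (t := R / (2 * n)) (by positivity)
  have h4 : 4 * R * K = 64 * n ^ 3 * (R / (2 * n) * Real.exp (-(R / (2 * n)))) := by
    rw [hK]; field_simp; ring
  rw [h4]
  calc 64 * (n:ℝ) ^ 3 * (R / (2 * n) * Real.exp (-(R / (2 * n)))) ≤ 64 * n ^ 3 * 1 :=
        mul_le_mul_of_nonneg_left h3 (by positivity)
    _ = _ := mul_one _

lemma exp_neg_le_pow {t : ℝ} (ht : 0 < t) (k : ℕ) :
    Real.exp (-t) ≤ k.factorial / t ^ k := by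
  have h := Real.pow_div_factorial_le_exp t ht.le k
  rw [Real.exp_neg, inv_eq_one_div, div_le_div_iff₀ (Real.exp_pos _) (by positivity), one_mul]
  rw [div_le_iff₀ (by positivity)] at h
  linarith

lemma abs_stress_le (hu : Sol u) (x : Fin (m + 1) → ℝ) :
    |en u x - pd p u x ^ 2| ≤ psi u x ^ 2 / 2 := by
  have h1 := hu.en_le x
  have h2 := en_nonneg u x
  have h3 : pd p u x ^ 2 ≤ ∑ j, pd j u x ^ 2 :=
    Finset.single_le_sum (f := fun j => pd j u x ^ 2) (fun _ _ => sq_nonneg _) (Finset.mem_univ p)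
  have h4 : (1 / 2) * ∑ j, pd j u x ^ 2 ≤ en u x := by
    unfold en
    nlinarith [sq_nonneg (1 - u x ^ 2)]
  rw [abs_le]
  constructor <;> nlinarith [sq_nonneg (pd p u x)]

/-- **(B3)** -/
theorem gsl_bd (p : Fin (m + 1)) (k : ℕ) : ∃ C : ℝ, 0 < C ∧
    ∀ (u : (Fin (m + 1) → ℝ) → ℝ) (a R H : ℝ),
    Sol u → 0 < R → 0 ≤ H → H ≤ R / 8 → |a| ≤ H → Flat u p a (4 * R) H →
    ∀ y : Fin m → ℝ, esq y ≤ R ^ 2 → |gsl p (zR R) u y| ≤ C / R ^ k := by
  obtain ⟨n, hn⟩ : ∃ n : ℕ, n = m + 1 := ⟨_, rfl⟩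
  have hn1 : (1:ℝ) ≤ n := by rw [hn]; push_cast; linarith [Nat.cast_nonneg (α := ℝ) m]
  have hn0 : (0:ℝ) < n := by linarith
  have hP := Psi_one_pos
  obtain ⟨C0, hC0, hC⟩ := exists_zR_bound
  have hC00 : 0 < C0 := by linarith
  refine ⟨(Psi 1)⁻¹ * (64 * C0 * n ^ 2 * (k.factorial * (2 * n) ^ k)), by positivity, ?_⟩
  intro u a R H hu hR hH hHR ha hF y hy
  unfold gsl
  rw [abs_mul, abs_of_pos (inv_pos.mpr hP), mul_div_assoc]
  apply mul_le_mul_of_nonneg_left _ (inv_pos.mpr hP).le
  set K : ℝ := C0 / R * (8 * n ^ 2 * (2 * Real.exp (-(R / (2 * n))))) with hK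
  have hK0 : 0 ≤ K := by positivity
  have hb : Integrable ((Set.Icc (-(2 * R)) (2 * R)).indicator fun _ : ℝ => K) :=
    (integrable_indicator_iff measurableSet_Icc).mpr (integrableOn_const (by simp))
  have h1 : ‖sl p (deriv (zR R)) (fun x => en u x - pd p u x ^ 2) y‖
      ≤ ∫ s, (Set.Icc (-(2 * R)) (2 * R)).indicator (fun _ : ℝ => K) s := by
    apply norm_integral_le_of_norm_le hb
    refine Eventually.of_forall fun s => ?_
    obtain ⟨z1, z2, z3⟩ := hC R s hR
    by_cases hs1 : s ^ 2 < R ^ 2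
    · rw [z2 hs1, zero_mul, norm_zero]
      exact Set.indicator_nonneg (fun _ _ => hK0) s
    by_cases hs2 : 2 * R ^ 2 < s ^ 2
    · rw [z3 hs2, zero_mul, norm_zero]
      exact Set.indicator_nonneg (fun _ _ => hK0) s
    push Not at hs1 hs2
    have hs3 : s ∈ Set.Icc (-(2 * R)) (2 * R) := by
      rw [Set.mem_Icc, ← abs_le]
      apply abs_le_of_sq_le_sq _ (by linarith)
      nlinarith
    have hs4 : R ≤ |s| := by
      have := Real.sqrt_le_sqrt hs1
      rwa [Real.sqrt_sq hR.le, Real.sqrt_sq_eq_abs] at this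
    rw [Set.indicator_of_mem hs3, norm_mul, Real.norm_eq_abs, Real.norm_eq_abs, hK]
    obtain ⟨f1, f2⟩ := far_exp (n := n) (s := s) (by omega) hR hH hHR ha hs4
    have hF' : Flat u p a (2 * (2 * R)) H := by
      have : 2 * (2 * R) = 4 * R := by ring
      rwa [this]
    have h3 := psi_flat (n := m + 1) (by omega) hu hF' (by positivity : 0 < 2 * R)
      (x := ins p s y) (by rw [esq_ins]; nlinarith) (by simpa using f1)
    rw [ins_same] at h3
    have h3 : psi u (ins p s y) ^ 2 ≤ 16 * (n:ℝ) ^ 2 * (Real.exp (-(|s - a| - H))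
        + Real.exp (-(2 * (2 * R / n)))) := by
      have hc : ((m + 1 : ℕ) : ℝ) = n := by rw [hn]
      rw [← hc]; exact h3
    have h4 := abs_stress_le (p := p) hu (ins p s y)
    have h5 : psi u (ins p s y) ^ 2 ≤ 16 * n ^ 2 * (2 * Real.exp (-(R / (2 * n)))) :=
      h3.trans (mul_le_mul_of_nonneg_left f2 (by positivity))
    apply mul_le_mul z1 _ (abs_nonneg _) (by positivity)
    linarith
  rw [Real.norm_eq_abs] at h1
  refine h1.trans ?_
  rw [integral_indicator measurableSet_Icc, setIntegral_const]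
  have h2 : volume.real (Set.Icc (-(2 * R)) (2 * R)) = 4 * R := by
    simp only [Measure.real, Real.volume_Icc]
    rw [ENNReal.toReal_ofReal (by linarith)]; ring
  rw [h2, smul_eq_mul]
  have h3 := exp_neg_le_pow (t := R / (2 * n)) (by positivity) k
  have h4 : 4 * R * K = 64 * C0 * n ^ 2 * Real.exp (-(R / (2 * n))) := by
    rw [hK]; field_simp; ring
  have h5 : (k.factorial : ℝ) / (R / (2 * n)) ^ k = k.factorial * (2 * n) ^ k / R ^ k := by
    rw [div_pow]; field_simp
  rw [h5] at h3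
  rw [h4, mul_div_assoc]
  exact mul_le_mul_of_nonneg_left h3 (by positivity)

lemma isCompact_esq (r : ℝ) : IsCompact {y : Fin m → ℝ | esq y ≤ r} := by
  refine (isCompact_box (r + 1)).of_isClosed_subset
    (isClosed_le continuous_esq continuous_const) ?_
  intro y hy
  have hy' : esq y ≤ r := hy
  rw [mem_box]
  intro i
  have h1 := (sq_le_esq y i).trans hy'
  have h0 : 0 ≤ r := (esq_nonneg y).trans hy'
  apply abs_le_of_sq_le_sq _ (by linarith)
  nlinarith

lemma TL_eq (u : (Fin (m + 1) → ℝ) → ℝ) (p : Fin (m + 1)) (x : Fin (m + 1) → ℝ) :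
    TL u p x = (∑ i : Fin m, pd (p.succAbove i) u x ^ 2) + (pd p u x - psi u x / √2) ^ 2 := by
  unfold TL
  congr 1
  have h := Fin.sum_univ_succAbove (fun i => pd i u x ^ 2) p
  rw [← Finset.add_sum_erase _ _ (Finset.mem_univ p)] at h
  linarith

lemma TL_nonneg' (u : (Fin (m + 1) → ℝ) → ℝ) (p : Fin (m + 1)) (x : Fin (m + 1) → ℝ) :
    0 ≤ TL u p x := by
  unfold TL
  have : 0 ≤ ∑ i ∈ Finset.univ.erase p, pd i u x ^ 2 := Finset.sum_nonneg fun _ _ => sq_nonneg _
  positivity

lemma TL_continuous' (hu : Sol u) (p : Fin (m + 1)) : Continuous (TL u p) := by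
  unfold TL
  exact (continuous_finsetSum _ fun i _ => (contDiff_pd_one hu.c2).continuous.pow 2).add
    (((contDiff_pd_one hu.c2).continuous.sub (hu.psi_contDiff.continuous.div_const _)).pow 2)

lemma sum_fsl_le (hu : Sol u) (hR : 0 < R) (y : Fin m → ℝ) :
    ∑ i, |fsl p (zR R) u i y| ≤ (Psi 1)⁻¹ * (m + 1) * sl p (zR R) (TL u p) y := by
  have hP := Psi_one_pos
  have hz := (zR_contDiff R).continuous
  have hc := zR_hasCompactSupport hR
  have cF : ∀ i : Fin m, Continuous
      (fun x => |(pd p u x - psi u x / √2) * pd (p.succAbove i) u x|) := fun i =>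
    (((contDiff_pd_one hu.c2).continuous.sub (hu.psi_contDiff.continuous.div_const _)).mul
      (contDiff_pd_one hu.c2).continuous).abs
  have h1 : ∀ i, |fsl p (zR R) u i y| ≤ (Psi 1)⁻¹ * sl p (zR R)
      (fun x => |(pd p u x - psi u x / √2) * pd (p.succAbove i) u x|) y := by
    intro i
    unfold fsl
    rw [abs_mul, abs_of_pos (inv_pos.mpr hP)]
    apply mul_le_mul_of_nonneg_left _ (inv_pos.mpr hP).le
    unfold sl
    refine (abs_integral_le_integral_abs).trans (le_of_eq ?_)
    congr 1; ext s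
    rw [abs_mul, abs_of_nonneg (zR_nonneg R s)]
  refine (Finset.sum_le_sum fun i _ => h1 i).trans ?_
  rw [← Finset.mul_sum, mul_assoc]
  apply mul_le_mul_of_nonneg_left _ (inv_pos.mpr hP).le
  rw [← sl_sum Finset.univ hz hc cF]
  unfold sl
  rw [← integral_const_mul]
  apply integral_mono
  · exact sl_integrable hz hc (continuous_finsetSum _ fun i _ => cF i) y
  · exact (sl_integrable hz hc (TL_continuous' hu p) y).const_mul _
  · intro s
    simp only
    have h2 : ∑ i : Fin m, |(pd p u (ins p s y) - psi u (ins p s y) / √2)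
        * pd (p.succAbove i) u (ins p s y)| ≤ (m + 1) * TL u p (ins p s y) := by
      rw [TL_eq]
      set A := pd p u (ins p s y) - psi u (ins p s y) / √2
      have h3 : ∀ i ∈ (Finset.univ : Finset (Fin m)),
          |A * pd (p.succAbove i) u (ins p s y)| ≤ A ^ 2 + pd (p.succAbove i) u (ins p s y) ^ 2 := by
        intro i _
        rw [abs_le]
        constructor <;> nlinarith [sq_nonneg (A + pd (p.succAbove i) u (ins p s y)),
          sq_nonneg (A - pd (p.succAbove i) u (ins p s y)), sq_nonneg A,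
          sq_nonneg (pd (p.succAbove i) u (ins p s y))]
      refine (Finset.sum_le_sum h3).trans ?_
      rw [Finset.sum_add_distrib, Finset.sum_const, Finset.card_univ, Fintype.card_fin,
        nsmul_eq_mul]
      have h4 : 0 ≤ ∑ i : Fin m, pd (p.succAbove i) u (ins p s y) ^ 2 :=
        Finset.sum_nonneg fun _ _ => sq_nonneg _
      have h5 : (0:ℝ) ≤ m := Nat.cast_nonneg m
      nlinarith [sq_nonneg A, mul_nonneg h5 h4]
    calc zR R s * ∑ i : Fin m, |(pd p u (ins p s y) - psi u (ins p s y) / √2)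
          * pd (p.succAbove i) u (ins p s y)|
        ≤ zR R s * ((m + 1) * TL u p (ins p s y)) :=
          mul_le_mul_of_nonneg_left h2 (zR_nonneg R s)
      _ = _ := by ring

/-- Integral over a cylinder. -/
lemma cyl_le (hu : Sol u) (p : Fin (m + 1)) (hR : 0 < R) :
    ∫ y in {y : Fin m → ℝ | esq y ≤ R ^ 2}, sl p (zR R) (TL u p) y ≤ 2 * TILT u p (4 * R) := by
  set G : (Fin (m + 1) → ℝ) → ℝ := fun x =>
    (if esq x - x p ^ 2 ≤ R ^ 2 then zR R (x p) * TL u p x else 0) with hG
  have hcT : Continuous fun x : Fin (m + 1) → ℝ => zR R (x p) * TL u p x :=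
    ((zR_contDiff R).continuous.comp (continuous_apply p)).mul (TL_continuous' hu p)
  have hGm : Measurable G := by
    apply Measurable.ite _ hcT.measurable measurable_const
    exact measurableSet_le (continuous_esq.sub ((continuous_apply p).pow 2)).measurable
      measurable_const
  have hG0 : ∀ x, 0 ≤ G x := fun x => by
    simp only [hG]
    split_ifs
    · exact mul_nonneg (zR_nonneg _ _) (TL_nonneg' _ _ _)
    · exact le_rfl
  have hph : Integrable fun x : Fin (m + 1) → ℝ => TL u p x * ph (4 * R) x :=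
    ((TL_continuous' hu p).mul (ph_contDiff _).continuous).integrable_of_hasCompactSupport
      (ph_hasCompactSupport (by positivity)).mul_left
  have hle : ∀ x, G x ≤ 2 * (TL u p x * ph (4 * R) x) := by
    intro x
    have hT := TL_nonneg' u p x
    have hp0 := ph_nonneg (4 * R) x
    simp only [hG]
    split_ifs with h
    · by_cases h2 : 2 * R ^ 2 ≤ x p ^ 2
      · rw [zR_zero hR h2, zero_mul]; positivity
      · push Not at h2
        have h3 : esq x ≤ 3 * R ^ 2 := by linarith
        have h4 : esq x / (4 * R) ^ 2 ≤ 3 / 16 := by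
          rw [div_le_iff₀ (by positivity)]; nlinarith
        have h5 : 1 / 2 ≤ ph (4 * R) x := by
          unfold ph mm
          rw [pp_of_nonneg (by linarith)]
          nlinarith
        calc zR R (x p) * TL u p x ≤ 1 * TL u p x :=
              mul_le_mul_of_nonneg_right (zR_le_one _ _) hT
          _ ≤ 2 * (TL u p x * ph (4 * R) x) := by nlinarith
    · positivity
  have hGi : Integrable G := Integrable.mono' (hph.const_mul 2) hGm.aestronglyMeasurable
    (Eventually.of_forall fun x => by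
      rw [Real.norm_eq_abs, abs_of_nonneg (hG0 x)]; exact hle x)
  have e1 : ∫ y in {y : Fin m → ℝ | esq y ≤ R ^ 2}, sl p (zR R) (TL u p) y = ∫ x, G x := by
    rw [integral_ins p hGi, ← integral_indicator (isCompact_esq _).isClosed.measurableSet]
    congr 1; ext y
    by_cases hy : esq y ≤ R ^ 2
    · rw [Set.indicator_of_mem (by exact hy)]
      unfold sl
      congr 1; ext s
      simp only [hG, esq_ins, ins_same, add_sub_cancel_left, if_pos hy]
    · rw [Set.indicator_of_notMem (by exact hy)]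
      simp only [hG, esq_ins, ins_same, add_sub_cancel_left, if_neg hy, integral_zero]
  rw [e1]
  unfold TILT
  rw [← integral_const_mul]
  exact integral_mono hGi (hph.const_mul 2) hle

/-- **(B2)** -/
theorem fsl_bd (hu : Sol u) (p : Fin (m + 1)) (hR : 0 < R) :
    ∫ y in {y : Fin m → ℝ | esq y ≤ R ^ 2}, ∑ i, |fsl p (zR R) u i y|
      ≤ 2 * (Psi 1)⁻¹ * (m + 1) * TILT u p (4 * R) := by
  have hP := Psi_one_pos
  have hz := (zR_contDiff R).continuous
  have hc := zR_hasCompactSupport hR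
  have hK := isCompact_esq (m := m) (R ^ 2)
  have h1 : ∫ y in {y : Fin m → ℝ | esq y ≤ R ^ 2}, ∑ i, |fsl p (zR R) u i y|
      ≤ ∫ y in {y : Fin m → ℝ | esq y ≤ R ^ 2}, (Psi 1)⁻¹ * (m + 1) * sl p (zR R) (TL u p) y := by
    apply setIntegral_mono
    · exact (continuous_finsetSum _ fun i _ =>
        (fsl_contDiff hu hz hc i).continuous.abs).continuousOn.integrableOn_compact hK
    · exact (continuous_const.mul (sl_continuous hz hc
        (TL_continuous' hu p))).continuousOn.integrableOn_compact hK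
    · exact fun y => sum_fsl_le hu hR y
  refine h1.trans ?_
  rw [integral_const_mul]
  calc (Psi 1)⁻¹ * (m + 1) * ∫ y in {y : Fin m → ℝ | esq y ≤ R ^ 2}, sl p (zR R) (TL u p) y
      ≤ (Psi 1)⁻¹ * (m + 1) * (2 * TILT u p (4 * R)) :=
        mul_le_mul_of_nonneg_left (cyl_le hu p hR) (by positivity)
    _ = _ := by ring

end Vale.Agent.P134.H160
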