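import Vale.Agent.P134.H160.Slice

set_option linter.all false

open MeasureTheory Filter Topology

/-!
Block 2.4: the slice function `h` satisfies `Δh = div f + g`.
-/

namespace Vale.Agent.P134.H160

open Vale.Agent.P134.H891

variable {m : ℕ} {p : Fin (m + 1)} {ζ : ℝ → ℝ} {u : (Fin (m + 1) → ℝ) → ℝ} {a : ℝ}

lemma Psi_one_pos : 0 < Psi 1 := by
  rw [Psi_eq]
  have := sqrt2_pos
  positivity

/-- The slice function. -/
noncomputable def hsl (p : Fin (m + 1)) (ζ : ℝ → ℝ) (a : ℝ) (u : (Fin (m + 1) → ℝ) → ℝ)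
    (y : Fin m → ℝ) : ℝ :=
  (Psi 1)⁻¹ * ∫ s, ζ s * ((if a < s then Psi 1 else 0) - Psi (u (ins p s y)))

/-- The vector field. -/
noncomputable def fsl (p : Fin (m + 1)) (ζ : ℝ → ℝ) (u : (Fin (m + 1) → ℝ) → ℝ) (i : Fin m)
    (y : Fin m → ℝ) : ℝ :=
  (Psi 1)⁻¹ * sl p ζ (fun x => (pd p u x - psi u x / √2) * pd (p.succAbove i) u x) y

/-- The remainder. -/
noncomputable def gsl (p : Fin (m + 1)) (ζ : ℝ → ℝ) (u : (Fin (m + 1) → ℝ) → ℝ)
    (y : Fin m → ℝ) : ℝ :=
  (Psi 1)⁻¹ * sl p (deriv ζ) (fun x => en u x - pd p u x ^ 2) y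

lemma step_integrable (hζ : Continuous ζ) (hc : HasCompactSupport ζ) (a c : ℝ) :
    Integrable fun s => ζ s * (if a < s then c else 0) := by
  have h1 : (fun s => ζ s * (if a < s then c else 0))
      = (Set.Ioi a).indicator (fun s => ζ s * c) := by
    ext s
    by_cases h : a < s
    · rw [Set.indicator_of_mem (by exact h), if_pos h]
    · rw [Set.indicator_of_notMem (by exact h), if_neg h, mul_zero]
  rw [h1]
  exact ((hζ.integrable_of_hasCompactSupport hc).mul_const c).indicator measurableSet_Ioi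

lemma hsl_eq (hu : Sol u) (hζ : Continuous ζ) (hc : HasCompactSupport ζ) (a : ℝ) :
    hsl p ζ a u = fun y => (Psi 1)⁻¹ * (∫ s, ζ s * (if a < s then Psi 1 else 0))
      - (Psi 1)⁻¹ * sl p ζ (fun x => Psi (u x)) y := by
  funext y
  unfold hsl sl
  rw [← mul_sub, ← integral_sub (step_integrable hζ hc a _)
    (sl_integrable hζ hc (Psi_comp_contDiff hu).continuous y)]
  congr 2; ext s; ring

lemma hsl_contDiff (hu : Sol u) (hζ : Continuous ζ) (hc : HasCompactSupport ζ) (a : ℝ) :
    ContDiff ℝ 2 (hsl p ζ a u) := by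
  rw [hsl_eq hu hζ hc]
  have : ContDiff ℝ 2 (fun x => Psi (u x)) := contDiff_Psi.comp hu.c2
  exact contDiff_const.sub (contDiff_const.mul (sl_contDiff_two hζ hc this))

lemma fsl_contDiff (hu : Sol u) (hζ : Continuous ζ) (hc : HasCompactSupport ζ) (i : Fin m) :
    ContDiff ℝ 1 (fsl p ζ u i) := by
  unfold fsl
  refine contDiff_const.mul (sl_contDiff_one hζ hc ?_)
  exact ((contDiff_pd_one hu.c2).sub ((hu.psi_contDiff.of_le (by norm_num)).div_const _)).mul
    (contDiff_pd_one hu.c2)

lemma gsl_continuous (hu : Sol u) (hζ : ContDiff ℝ 1 ζ) (hc : HasCompactSupport ζ) :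
    Continuous (gsl p ζ u) := by
  unfold gsl
  refine continuous_const.mul (sl_continuous (hζ.continuous_deriv (by norm_num)) hc.deriv ?_)
  exact (en_contDiff hu.c2).continuous.sub ((contDiff_pd_one hu.c2).continuous.pow 2)

/-- The stress identity. -/
lemma stress (hu : Sol u) (x : Fin (m + 1) → ℝ) :
    ∑ i, pd (p.succAbove i) (fun x => pd p u x * pd (p.succAbove i) u x) x
      = pd p (fun x => en u x - pd p u x ^ 2) x := by
  have dp : ∀ j, DifferentiableAt ℝ (pd j u) x := fun j =>
    (contDiff_pd_one hu.c2).differentiable (by norm_num) x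
  have h1 : ∀ j, pd j (fun x => pd p u x * pd j u x) x
      = pd p u x * pd j (pd j u) x + pd j u x * pd p (pd j u) x := by
    intro j
    rw [pd_mul (dp p) (dp j), pd_comm hu.c2 (i := j) (j := p)]
  have h2 : ∑ j, pd j (fun x => pd p u x * pd j u x) x = pd p (en u) x := by
    rw [pd_en hu.c2]
    simp_rw [h1]
    rw [Finset.sum_add_distrib, ← Finset.mul_sum, hu.eq]
    ring
  rw [Fin.sum_univ_succAbove _ p] at h2
  have h3 : pd p (fun x => en u x - pd p u x ^ 2) x
      = pd p (en u) x - pd p (fun x => pd p u x * pd p u x) x := by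
    have e : (fun x => en u x - pd p u x ^ 2) = fun x => en u x - pd p u x * pd p u x := by
      ext y; ring
    rw [e]
    exact pd_sub (g := fun x => pd p u x * pd p u x)
      ((en_contDiff hu.c2).differentiable (by norm_num) x) ((dp p).mul (dp p))
  rw [h3, ← h2]; ring

/-- **Block 2.4.** -/
theorem div_eq (hu : Sol u) (hζ : ContDiff ℝ 1 ζ) (hc : HasCompactSupport ζ) (a : ℝ)
    (y : Fin m → ℝ) :
    ∑ i, pd i (pd i (hsl p ζ a u)) y = ∑ i, pd i (fsl p ζ u i) y + gsl p ζ u y := by
  have hζc := hζ.continuous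
  have cP : ContDiff ℝ 2 (fun x => Psi (u x)) := contDiff_Psi.comp hu.c2
  have cP1 : ContDiff ℝ 1 (fun x => Psi (u x)) := cP.of_le (by norm_num)
  have cm : ContDiff ℝ 1 (fun x => psi u x / √2) :=
    (hu.psi_contDiff.of_le (by norm_num)).div_const _
  have cG : ∀ i : Fin m, ContDiff ℝ 1 (fun x => psi u x / √2 * pd (p.succAbove i) u x) :=
    fun i => cm.mul (contDiff_pd_one hu.c2)
  have cF : ∀ i : Fin m, ContDiff ℝ 1
      (fun x => (pd p u x - psi u x / √2) * pd (p.succAbove i) u x) :=
    fun i => ((contDiff_pd_one hu.c2).sub cm).mul (contDiff_pd_one hu.c2)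
  have cS : ∀ i : Fin m, ContDiff ℝ 1 (fun x => pd p u x * pd (p.succAbove i) u x) :=
    fun i => (contDiff_pd_one hu.c2).mul (contDiff_pd_one hu.c2)
  have cE : ContDiff ℝ 1 (fun x => en u x - pd p u x ^ 2) :=
    (en_contDiff hu.c2).sub ((contDiff_pd_one hu.c2).pow 2)
  -- derivatives of `h`
  have e1 : ∀ i, pd i (hsl p ζ a u)
      = fun y => - ((Psi 1)⁻¹ * sl p ζ (fun x => psi u x / √2 * pd (p.succAbove i) u x) y) := by
    intro i
    funext y
    have d1 : DifferentiableAt ℝ (sl p ζ (fun x => Psi (u x))) y :=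
      (sl_contDiff_one hζc hc cP1).differentiable (by norm_num) y
    rw [hsl_eq hu hζc hc, pd_sub (differentiableAt_const _) (d1.const_mul _), pd_const,
      pd_mul (differentiableAt_const _) d1, pd_const, pd_sl hζc hc cP1]
    have : pd (p.succAbove i) (fun x => Psi (u x))
        = fun x => psi u x / √2 * pd (p.succAbove i) u x := funext fun x => pd_Psi hu _ x
    rw [this]; ring
  have e2 : ∀ i, pd i (pd i (hsl p ζ a u)) y
      = - ((Psi 1)⁻¹ * sl p ζ
        (pd (p.succAbove i) (fun x => psi u x / √2 * pd (p.succAbove i) u x)) y) := by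
    intro i
    have d1 : DifferentiableAt ℝ (sl p ζ (fun x => psi u x / √2 * pd (p.succAbove i) u x)) y :=
      (sl_contDiff_one hζc hc (cG i)).differentiable (by norm_num) y
    rw [e1 i, pd_neg, pd_mul (differentiableAt_const _) d1, pd_const, pd_sl hζc hc (cG i)]
    ring
  have e3 : ∀ i, pd i (fsl p ζ u i) y = (Psi 1)⁻¹ * sl p ζ
      (pd (p.succAbove i) (fun x => (pd p u x - psi u x / √2) * pd (p.succAbove i) u x)) y := by
    intro i
    have d1 : DifferentiableAt ℝ
        (sl p ζ (fun x => (pd p u x - psi u x / √2) * pd (p.succAbove i) u x)) y :=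
      (sl_contDiff_one hζc hc (cF i)).differentiable (by norm_num) y
    unfold fsl
    rw [pd_mul (differentiableAt_const _) d1, pd_const, pd_sl hζc hc (cF i)]
    ring
  have e4 : ∀ i, sl p ζ
        (pd (p.succAbove i) (fun x => (pd p u x - psi u x / √2) * pd (p.succAbove i) u x)) y
      + sl p ζ (pd (p.succAbove i) (fun x => psi u x / √2 * pd (p.succAbove i) u x)) y
      = sl p ζ (pd (p.succAbove i) (fun x => pd p u x * pd (p.succAbove i) u x)) y := by
    intro i
    rw [← sl_add hζc hc (continuous_pd (cF i)) (continuous_pd (cG i))]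
    congr 1
    funext x
    rw [← pd_add ((cF i).differentiable (by norm_num) x) ((cG i).differentiable (by norm_num) x)]
    congr 1
    funext z; ring
  have e5 : ∑ i, sl p ζ (pd (p.succAbove i) (fun x => pd p u x * pd (p.succAbove i) u x)) y
      = - sl p (deriv ζ) (fun x => en u x - pd p u x ^ 2) y := by
    rw [← sl_sum Finset.univ hζc hc (fun i => continuous_pd (cS i)), ← sl_pd hζ hc cE]
    congr 1
    funext x
    exact stress hu x
  simp_rw [e2, e3]
  unfold gsl
  rw [Finset.sum_neg_distrib, ← Finset.mul_sum, ← Finset.mul_sum, ← sub_eq_zero]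
  have e6 : ∑ i, sl p ζ
        (pd (p.succAbove i) (fun x => (pd p u x - psi u x / √2) * pd (p.succAbove i) u x)) y
      + ∑ i, sl p ζ (pd (p.succAbove i) (fun x => psi u x / √2 * pd (p.succAbove i) u x)) y
      = - sl p (deriv ζ) (fun x => en u x - pd p u x ^ 2) y := by
    rw [← Finset.sum_add_distrib, ← e5]
    exact Finset.sum_congr rfl fun i _ => e4 i
  linear_combination (-(Psi 1)⁻¹) * e6

end Vale.Agent.P134.H160
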