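import Mathlib.Analysis.SpecialFunctions.ImproperIntegrals
import Vale.Agent.P134.H160.Div
import Vale.Agent.P134.H370.Moments

set_option linter.all false

open MeasureTheory Filter Topology

/-!
Bounds for the slice function `h`, the vector field `f` and the remainder `g` of block 2.4.
-/

namespace Vale.Agent.P134.H160

open Vale.Agent.P134.H891 Vale.Agent.P134.H370

variable {m : ℕ} {p : Fin (m + 1)} {u : (Fin (m + 1) → ℝ) → ℝ} {a R H s : ℝ}

/-! ### Fubini -/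

lemma ins_measurePreserving (p : Fin (m + 1)) :
    MeasurePreserving (fun q : ℝ × (Fin m → ℝ) => ins p q.1 q.2) (volume.prod volume) volume := by
  exact (volume_preserving_piFinSuccAbove (fun _ : Fin (m + 1) => ℝ) p).symm _

lemma ins_embedding (p : Fin (m + 1)) :
    MeasurableEmbedding (fun q : ℝ × (Fin m → ℝ) => ins p q.1 q.2) :=
  (MeasurableEquiv.piFinSuccAbove (fun _ : Fin (m + 1) => ℝ) p).symm.measurableEmbedding

lemma integrable_ins {G : (Fin (m + 1) → ℝ) → ℝ} (p : Fin (m + 1)) :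
    Integrable (fun q : ℝ × (Fin m → ℝ) => G (ins p q.1 q.2)) (volume.prod volume) ↔ Integrable G :=
  (ins_measurePreserving p).integrable_comp_emb (ins_embedding p)

lemma integral_ins {G : (Fin (m + 1) → ℝ) → ℝ} (p : Fin (m + 1)) (hG : Integrable G) :
    ∫ x, G x = ∫ y, ∫ s, G (ins p s y) := by
  rw [← (ins_measurePreserving p).integral_comp (ins_embedding p)]
  exact integral_prod_symm _ ((integrable_ins p).mpr hG)

lemma integrable_ins_outer {G : (Fin (m + 1) → ℝ) → ℝ} (p : Fin (m + 1)) (hG : Integrable G) :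
    Integrable fun y => ∫ s, G (ins p s y) :=
  ((integrable_ins p).mpr hG).integral_prod_right

lemma esq_ins (p : Fin (m + 1)) (s : ℝ) (y : Fin m → ℝ) : esq (ins p s y) = s ^ 2 + esq y := by
  unfold esq
  rw [Fin.sum_univ_succAbove _ p]
  simp

/-! ### The cut-off -/

/-- Cut-off in the height variable. -/
noncomputable def zR (R s : ℝ) : ℝ := th (s ^ 2 / R ^ 2)

lemma zR_contDiff (R : ℝ) : ContDiff ℝ 1 (zR R) := by
  unfold zR
  exact th_contDiff.comp ((contDiff_id.pow 2).div_const _)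

lemma zR_nonneg (R s : ℝ) : 0 ≤ zR R s := th_nonneg _
lemma zR_le_one (R s : ℝ) : zR R s ≤ 1 := th_le_one _

lemma zR_one (hR : 0 < R) (h : |s| ≤ R) : zR R s = 1 := by
  apply th_one
  rw [div_le_one (by positivity)]
  exact sq_le_sq' (by linarith [(abs_le.mp h).1]) (abs_le.mp h).2

lemma zR_zero (hR : 0 < R) (h : 2 * R ^ 2 ≤ s ^ 2) : zR R s = 0 := by
  apply th_zero
  rwa [le_div_iff₀ (by positivity)]

lemma zR_hasCompactSupport (hR : 0 < R) : HasCompactSupport (zR R) := by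
  apply HasCompactSupport.intro (isCompact_Icc (a := -(2 * R)) (b := 2 * R))
  intro s hs
  apply zR_zero hR
  by_contra hcon
  apply hs
  rw [Set.mem_Icc, ← abs_le]
  apply abs_le_of_sq_le_sq _ (by linarith)
  nlinarith

lemma deriv_zR (hR : 0 < R) (s : ℝ) : deriv (zR R) s = deriv th (s ^ 2 / R ^ 2) * (2 * s / R ^ 2) := by
  have h1 : HasDerivAt (fun s : ℝ => s ^ 2 / R ^ 2) (2 * s / R ^ 2) s := by
    have := (hasDerivAt_pow 2 s).div_const (R ^ 2)
    simpa using this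
  exact ((th_contDiff.differentiable (by norm_num) _).hasDerivAt.comp s h1).deriv

/-- Bound and support of the derivative. -/
lemma exists_zR_bound : ∃ C : ℝ, 1 ≤ C ∧ ∀ R s : ℝ, 0 < R →
    |deriv (zR R) s| ≤ C / R ∧ (s ^ 2 < R ^ 2 → deriv (zR R) s = 0) ∧
    (2 * R ^ 2 < s ^ 2 → deriv (zR R) s = 0) := by
  obtain ⟨C, hC1, hC⟩ := exists_th_bound
  refine ⟨4 * C, by linarith, fun R s hR => ?_⟩
  have hR2 : 0 < R ^ 2 := by positivity
  have z1 : s ^ 2 < R ^ 2 → deriv (zR R) s = 0 := by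
    intro h
    rw [deriv_zR hR, th_deriv_of_lt (by rwa [div_lt_one hR2]), zero_mul]
  have z2 : 2 * R ^ 2 < s ^ 2 → deriv (zR R) s = 0 := by
    intro h
    rw [deriv_zR hR, th_deriv_of_gt (by rwa [lt_div_iff₀ hR2]), zero_mul]
  refine ⟨?_, z1, z2⟩
  by_cases h : 2 * R ^ 2 < s ^ 2
  · rw [z2 h, abs_zero]; positivity
  · rw [deriv_zR hR, abs_mul]
    have h1 : |s| ≤ 2 * R := by
      apply abs_le_of_sq_le_sq _ (by linarith)
      nlinarith
    have h2 : |2 * s / R ^ 2| ≤ 4 / R := by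
      rw [abs_div, abs_mul, abs_of_pos hR2, abs_two, div_le_div_iff₀ hR2 hR]
      nlinarith
    calc |deriv th (s ^ 2 / R ^ 2)| * |2 * s / R ^ 2| ≤ C * (4 / R) :=
          mul_le_mul (hC _) h2 (abs_nonneg _) (by linarith)
      _ = 4 * C / R := by ring

/-! ### The gap -/

/-- The dominating function. -/
noncomputable def BB (n : ℕ) (a R H s : ℝ) : ℝ :=
  (Set.Icc (a - H) (a + H)).indicator (fun _ => (1:ℝ)) s
    + 8 * n ^ 2 * (1 + (s - (a + H)) ^ 2)⁻¹ + 8 * n ^ 2 * (1 + (s - (a - H)) ^ 2)⁻¹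
    + (Set.Icc (-(2 * R)) (2 * R)).indicator (fun _ => 4 * (n:ℝ) ^ 2 * Real.exp (-(2 * (2 * R / n)))) s

lemma BB_nonneg (n : ℕ) (a R H s : ℝ) : 0 ≤ BB n a R H s := by
  unfold BB
  have h1 : 0 ≤ (Set.Icc (a - H) (a + H)).indicator (fun _ => (1:ℝ)) s :=
    Set.indicator_nonneg (fun _ _ => zero_le_one) s
  have h2 : 0 ≤ (Set.Icc (-(2 * R)) (2 * R)).indicator
      (fun _ => 4 * (n:ℝ) ^ 2 * Real.exp (-(2 * (2 * R / n)))) s :=
    Set.indicator_nonneg (fun _ _ => by positivity) s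
  positivity

lemma BB_integrable (n : ℕ) (a R H : ℝ) : Integrable (BB n a R H) := by
  have h0 : Integrable fun s : ℝ => (1 + s ^ 2)⁻¹ := integrable_inv_one_add_sq
  have h1 : ∀ c : ℝ, Integrable fun s : ℝ => 8 * (n:ℝ) ^ 2 * (1 + (s - c) ^ 2)⁻¹ := fun c =>
    (h0.comp_sub_right c).const_mul _
  have h2 : ∀ (b c d : ℝ), Integrable ((Set.Icc b c).indicator fun _ => d) := fun b c d =>
    (integrable_indicator_iff measurableSet_Icc).mpr (integrableOn_const (by simp))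
  exact (((h2 _ _ _).add (h1 _)).add (h1 _)).add (h2 _ _ _)

lemma exp_neg_le {t : ℝ} (ht : 0 ≤ t) : Real.exp (-t) ≤ 2 * (1 + t ^ 2)⁻¹ := by
  rw [Real.exp_neg, ← div_eq_mul_inv, inv_eq_one_div, div_le_div_iff₀ (Real.exp_pos _) (by positivity)]
  have := Real.quadratic_le_exp_of_nonneg ht
  nlinarith

lemma mul_exp_neg_le {t : ℝ} (ht : 0 ≤ t) : t * Real.exp (-t) ≤ 1 := by
  rw [Real.exp_neg, ← div_eq_mul_inv, div_le_one (Real.exp_pos _)]
  linarith [Real.add_one_le_exp t]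

lemma BB_integral {n : ℕ} (hn : 0 < n) (hR : 0 < R) (hH : 0 ≤ H) :
    ∫ s, BB n a R H s ≤ 2 * H + 64 * n ^ 2 + 8 * n ^ 3 := by
  have hn0 : (0:ℝ) < n := by exact_mod_cast hn
  have h0 : Integrable fun s : ℝ => (1 + s ^ 2)⁻¹ := integrable_inv_one_add_sq
  have h1 : ∀ c : ℝ, Integrable fun s : ℝ => 8 * (n:ℝ) ^ 2 * (1 + (s - c) ^ 2)⁻¹ := fun c =>
    (h0.comp_sub_right c).const_mul _
  have h2 : ∀ (b c d : ℝ), Integrable ((Set.Icc b c).indicator fun _ => d) := fun b c d =>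
    (integrable_indicator_iff measurableSet_Icc).mpr (integrableOn_const (by simp))
  have e1 : ∀ c : ℝ, ∫ s : ℝ, 8 * (n:ℝ) ^ 2 * (1 + (s - c) ^ 2)⁻¹ = 8 * n ^ 2 * Real.pi := by
    intro c
    rw [integral_const_mul, integral_sub_right_eq_self (fun s : ℝ => (1 + s ^ 2)⁻¹) c,
      integral_univ_inv_one_add_sq]
  have e2 : ∀ (b c d : ℝ), b ≤ c → ∫ s : ℝ, (Set.Icc b c).indicator (fun _ => d) s = (c - b) * d := by
    intro b c d hbc
    rw [integral_indicator measurableSet_Icc, setIntegral_const]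
    simp [Measure.real, ENNReal.toReal_ofReal (sub_nonneg.mpr hbc)]
  have s1 := integral_add (h2 (a - H) (a + H) 1) (h1 (a + H))
  have s2 := integral_add ((h2 (a - H) (a + H) 1).add (h1 (a + H))) (h1 (a - H))
  have s3 := integral_add (((h2 (a - H) (a + H) 1).add (h1 (a + H))).add (h1 (a - H)))
    (h2 (-(2 * R)) (2 * R) (4 * (n:ℝ) ^ 2 * Real.exp (-(2 * (2 * R / n)))))
  simp only [Pi.add_apply] at s1 s2 s3
  have e3 : ∫ s, BB n a R H s = (a + H - (a - H)) * 1 + 8 * n ^ 2 * Real.pi + 8 * n ^ 2 * Real.pi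
      + (2 * R - -(2 * R)) * (4 * (n:ℝ) ^ 2 * Real.exp (-(2 * (2 * R / n)))) := by
    unfold BB
    rw [s3, s2, s1, e1, e1, e2 _ _ _ (by linarith), e2 _ _ _ (by linarith)]
  rw [e3]
  have hpi := Real.pi_le_four
  have h3 := mul_exp_neg_le (t := 2 * (2 * R / n)) (by positivity)
  have h4 : (2 * R - -(2 * R)) * (4 * (n:ℝ) ^ 2 * Real.exp (-(2 * (2 * R / n))))
      = 4 * n ^ 3 * (2 * (2 * R / n) * Real.exp (-(2 * (2 * R / n)))) := by
    field_simp
    ring
  rw [h4]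
  have h5 : 4 * (n:ℝ) ^ 3 * (2 * (2 * R / n) * Real.exp (-(2 * (2 * R / n)))) ≤ 4 * n ^ 3 * 1 :=
    mul_le_mul_of_nonneg_left h3 (by positivity)
  have h6 : 8 * (n:ℝ) ^ 2 * Real.pi ≤ 8 * n ^ 2 * 4 := mul_le_mul_of_nonneg_left hpi (by positivity)
  have h7 : (0:ℝ) ≤ n ^ 3 := by positivity
  linarith

/-- The gap to the sharp step. -/
noncomputable def gst (u : (Fin (m + 1) → ℝ) → ℝ) (p : Fin (m + 1)) (a : ℝ)
    (x : Fin (m + 1) → ℝ) : ℝ := (if a < x p then Psi 1 else 0) - Psi (u x)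

lemma gst_le_one (hu : Sol u) (p : Fin (m + 1)) (a : ℝ) (x : Fin (m + 1) → ℝ) :
    |gst u p a x| ≤ 1 := by
  have h1 := Psi_nonneg (hu.bd x)
  have h2 := Psi_le_Psi_one (hu.bd x)
  have h3 := Psi_one_le
  unfold gst
  split_ifs <;> rw [abs_le] <;> constructor <;> linarith

lemma gst_far (hu : Sol u) (hF : Flat u p a (4 * R) H) (hR : 0 < R)
    {x : Fin (m + 1) → ℝ} (hx : esq x ≤ (2 * R) ^ 2) (h : H < |x p - a|) :
    |gst u p a x| ≤ 4 * ((m + 1 : ℕ):ℝ) ^ 2 * (Real.exp (-(|x p - a| - H))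
      + Real.exp (-(2 * (2 * R / (m + 1 : ℕ))))) := by
  have hF' : Flat u p a (2 * (2 * R)) H := by
    have : 2 * (2 * R) = 4 * R := by ring
    rwa [this]
  obtain ⟨h1, h2⟩ := flat_sq (by omega) hu hF' (by positivity) hx h
  have b1 := Psi_nonneg (hu.bd x)
  have b2 := Psi_le_Psi_one (hu.bd x)
  unfold gst
  by_cases hc : a < x p
  · rw [if_pos hc, abs_of_nonneg (by linarith)]
    exact (Psi_one_sub_le_sq (hu.bd x)).trans (h1 (by linarith))
  · rw [if_neg hc, zero_sub, abs_neg, abs_of_nonneg b1]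
    exact (Psi_le_sq (hu.bd x)).trans (h2 (by linarith))

lemma gst_le_BB (hu : Sol u) (hF : Flat u p a (4 * R) H) (hR : 0 < R) {s : ℝ} {y : Fin m → ℝ}
    (hx : esq (ins p s y) ≤ (2 * R) ^ 2) :
    |gst u p a (ins p s y)| ≤ BB (m + 1) a R H s := by
  have hn2 : (0:ℝ) ≤ 8 * ((m + 1 : ℕ):ℝ) ^ 2 := by positivity
  have i1 : 0 ≤ 8 * ((m + 1 : ℕ):ℝ) ^ 2 * (1 + (s - (a + H)) ^ 2)⁻¹ := by positivity
  have i2 : 0 ≤ 8 * ((m + 1 : ℕ):ℝ) ^ 2 * (1 + (s - (a - H)) ^ 2)⁻¹ := by positivity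
  have i3 : 0 ≤ (Set.Icc (-(2 * R)) (2 * R)).indicator
      (fun _ => 4 * ((m + 1 : ℕ):ℝ) ^ 2 * Real.exp (-(2 * (2 * R / (m + 1 : ℕ))))) s :=
    Set.indicator_nonneg (fun _ _ => by positivity) s
  have i4 : 0 ≤ (Set.Icc (a - H) (a + H)).indicator (fun _ => (1:ℝ)) s :=
    Set.indicator_nonneg (fun _ _ => zero_le_one) s
  by_cases h : |s - a| ≤ H
  · have hm : s ∈ Set.Icc (a - H) (a + H) := by
      rw [Set.mem_Icc]; have := abs_le.mp h; constructor <;> linarith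
    have := gst_le_one hu p a (ins p s y)
    unfold BB
    rw [Set.indicator_of_mem hm]
    linarith
  · push Not at h
    have h1 := gst_far hu hF hR hx (by simpa using h)
    rw [ins_same] at h1
    have hs : s ∈ Set.Icc (-(2 * R)) (2 * R) := by
      rw [Set.mem_Icc, ← abs_le]
      apply abs_le_of_sq_le_sq _ (by linarith)
      rw [esq_ins] at hx
      linarith [esq_nonneg y]
    have h2 := exp_neg_le (t := |s - a| - H) (by linarith)
    have h3 : 2 * (1 + (|s - a| - H) ^ 2)⁻¹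
        ≤ 2 * (1 + (s - (a + H)) ^ 2)⁻¹ + 2 * (1 + (s - (a - H)) ^ 2)⁻¹ := by
      have j1 : 0 ≤ 2 * (1 + (s - (a + H)) ^ 2)⁻¹ := by positivity
      have j2 : 0 ≤ 2 * (1 + (s - (a - H)) ^ 2)⁻¹ := by positivity
      rcases le_total 0 (s - a) with h0 | h0
      · rw [abs_of_nonneg h0]
        have : s - a - H = s - (a + H) := by ring
        rw [this]; linarith
      · rw [abs_of_nonpos h0]
        have : (-(s - a) - H) ^ 2 = (s - (a - H)) ^ 2 := by ring
        rw [this]; linarith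
    unfold BB
    rw [Set.indicator_of_mem hs]
    have h4 : 4 * ((m + 1 : ℕ):ℝ) ^ 2 * Real.exp (-(|s - a| - H))
        ≤ 4 * ((m + 1 : ℕ):ℝ) ^ 2 * (2 * (1 + (s - (a + H)) ^ 2)⁻¹ + 2 * (1 + (s - (a - H)) ^ 2)⁻¹) :=
      mul_le_mul_of_nonneg_left (h2.trans h3) (by positivity)
    rw [mul_add] at h1
    linarith

end Vale.Agent.P134.H160
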