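import Vale.Agent.P134.H3.NP
import Vale.Agent.P134.H160.Bounds

set_option linter.all false

open MeasureTheory Filter Topology

/-!
The bounds of block 2.4 in the form used by `H3.NP_of`, and the new plane lemma.
-/

namespace Vale.Agent.P134.H160

open Vale.Agent.P134.H891 Vale.Agent.P134.H370 Vale.Agent.P134.H3

theorem bds (m : ℕ) : ∃ C : ℝ, 1 ≤ C ∧ Bds m C := by
  choose C1 hC1 h1 using fun p : Fin (m + 1) => hsl_bd p
  choose C3 hC3 h3 using fun p : Fin (m + 1) => gsl_bd p (m + 2)
  choose C4 hC4 h4 using fun p : Fin (m + 1) => hsl_sub p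
  have hP := Psi_one_pos
  set S : ℝ := ∑ p, (C1 p + C3 p + C4 p) with hS
  have hS0 : ∀ p, C1 p + C3 p + C4 p ≤ S := fun p =>
    Finset.single_le_sum (f := fun p => C1 p + C3 p + C4 p)
      (fun q _ => by have := hC1 q; have := hC3 q; have := hC4 q; positivity) (Finset.mem_univ p)
  have hSn : 0 ≤ S := Finset.sum_nonneg fun q _ => by
    have := hC1 q; have := hC3 q; have := hC4 q; positivity
  have hQ : 0 ≤ 2 * (Psi 1)⁻¹ * ((m:ℝ) + 1) := by positivity
  refine ⟨1 + S + 2 * (Psi 1)⁻¹ * (m + 1), by linarith, ?_⟩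
  intro u p a R H hu hR hH hHR ha hF
  have hR0 : 0 < R := by linarith
  have k1 := hC1 p
  have k3 := hC3 p
  have k4 := hC4 p
  have kS := hS0 p
  refine ⟨zR R, zR_contDiff R, zR_hasCompactSupport hR0, ?_, ?_, ?_, ?_⟩
  · intro y hy
    refine (h1 p u a R H hu hR0 hH hF y hy).trans (mul_le_mul_of_nonneg_right ?_ (by linarith))
    linarith
  · refine (fsl_bd hu p hR0).trans (mul_le_mul_of_nonneg_right (by linarith) ?_)
    exact integral_nonneg fun x => mul_nonneg (TL_nonneg' _ _ _) (ph_nonneg _ _)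
  · intro y hy
    refine (h3 p u a R H hu hR0 hH hHR ha hF y hy).trans ?_
    exact div_le_div_of_nonneg_right (by linarith) (by positivity)
  · intro y hy
    have h := h4 p u a R H hu hR0 hH hHR ha hF y hy
    have e : DL p u R a y = ∫ s in Set.Icc (-R) R, gst u p a (ins p s y) := by
      unfold DL
      rw [intervalIntegral.integral_of_le (by linarith), ← integral_Icc_eq_integral_Ioc]
      congr 1
      ext s
      unfold gst stp
      rw [ins_same]
    rw [e]
    linarith

/-- **New plane lemma.** -/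
theorem newPlane {m : ℕ} (hm : 0 < m) : ∃ C : ℝ, 1 ≤ C ∧ NPlane m C := by
  obtain ⟨C, hC, h⟩ := bds m
  exact NP_of hm hC h

end Vale.Agent.P134.H160
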