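import Vale.Agent.P134.H891.Flux

set_option linter.all false

open MeasureTheory Filter Topology

/-!
Integration over the lines parallel to a coordinate axis (block 2.4 of the blueprint): calculus of
`sl p ζ F y = ∫ ζ(s) F(s,y) ds`.
-/

namespace Vale.Agent.P134.H160

variable {m : ℕ} {p : Fin (m + 1)} {ζ : ℝ → ℝ} {F : (Fin (m + 1) → ℝ) → ℝ}

/-- The point with `p`-th coordinate `s` and remaining coordinates `y`. -/
def ins (p : Fin (m + 1)) (s : ℝ) (y : Fin m → ℝ) : Fin (m + 1) → ℝ :=
  p.insertNth (α := fun _ => ℝ) s y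

@[simp] lemma ins_same (p : Fin (m + 1)) (s : ℝ) (y : Fin m → ℝ) : ins p s y p = s := by
  simp [ins]

@[simp] lemma ins_succAbove (p : Fin (m + 1)) (s : ℝ) (y : Fin m → ℝ) (i : Fin m) :
    ins p s y (p.succAbove i) = y i := by
  simp [ins]

/-- Linear part in `y`. -/
noncomputable def insL (p : Fin (m + 1)) : (Fin m → ℝ) →L[ℝ] (Fin (m + 1) → ℝ) :=
  ContinuousLinearMap.pi fun j =>
    if h : ∃ i, p.succAbove i = j then ContinuousLinearMap.proj (R := ℝ) (φ := fun _ : Fin m => ℝ)
      h.choose else 0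

lemma insL_succAbove (p : Fin (m + 1)) (y : Fin m → ℝ) (i : Fin m) :
    insL p y (p.succAbove i) = y i := by
  have h : ∃ i', p.succAbove i' = p.succAbove i := ⟨i, rfl⟩
  unfold insL
  rw [ContinuousLinearMap.pi_apply, dif_pos h]
  have := p.succAbove_right_injective h.choose_spec
  simp [this]

lemma insL_same (p : Fin (m + 1)) (y : Fin m → ℝ) : insL p y p = 0 := by
  have h : ¬ ∃ i', p.succAbove i' = p := fun ⟨i, hi⟩ => p.succAbove_ne i hi
  unfold insL
  rw [ContinuousLinearMap.pi_apply, dif_neg h]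
  simp

lemma ins_eq (p : Fin (m + 1)) (s : ℝ) (y : Fin m → ℝ) :
    ins p s y = s • Pi.single p 1 + insL p y := by
  ext j
  rcases Fin.eq_self_or_eq_succAbove p j with rfl | ⟨i, rfl⟩
  · simp [insL_same]
  · simp [insL_succAbove, Pi.single_eq_of_ne (p.succAbove_ne i)]

lemma insL_single (p : Fin (m + 1)) (i : Fin m) :
    insL p (Pi.single i 1) = Pi.single (p.succAbove i) 1 := by
  ext j
  rcases Fin.eq_self_or_eq_succAbove p j with hj | ⟨k, rfl⟩
  · rw [hj, insL_same, Pi.single_eq_of_ne (p.succAbove_ne i).symm]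
  · rw [insL_succAbove]
    by_cases h : k = i
    · subst h; simp
    · rw [Pi.single_eq_of_ne h, Pi.single_eq_of_ne]
      exact fun hc => h (p.succAbove_right_injective hc)

lemma continuous_ins (p : Fin (m + 1)) : Continuous fun q : ℝ × (Fin m → ℝ) => ins p q.1 q.2 := by
  simp_rw [ins_eq]
  exact (continuous_fst.smul continuous_const).add ((insL p).continuous.comp continuous_snd)

lemma continuous_ins_left (p : Fin (m + 1)) (y : Fin m → ℝ) : Continuous fun s : ℝ => ins p s y :=
  (continuous_ins p).comp (continuous_id.prodMk continuous_const)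

/-- Weighted integral over the line. -/
noncomputable def sl (p : Fin (m + 1)) (ζ : ℝ → ℝ) (F : (Fin (m + 1) → ℝ) → ℝ)
    (y : Fin m → ℝ) : ℝ := ∫ s, ζ s * F (ins p s y)

lemma sl_integrable (hζ : Continuous ζ) (hc : HasCompactSupport ζ) (hF : Continuous F)
    (y : Fin m → ℝ) : Integrable fun s => ζ s * F (ins p s y) :=
  (hζ.mul (hF.comp (continuous_ins_left p y))).integrable_of_hasCompactSupport hc.mul_right

lemma sl_eq_set (hc : HasCompactSupport ζ) (y : Fin m → ℝ) :
    sl p ζ F y = ∫ s in tsupport ζ, ζ s * F (ins p s y) := by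
  unfold sl
  rw [setIntegral_eq_integral_of_forall_compl_eq_zero]
  intro s hs
  rw [image_eq_zero_of_notMem_tsupport hs, zero_mul]

lemma sl_continuous (hζ : Continuous ζ) (hc : HasCompactSupport ζ) (hF : Continuous F) :
    Continuous (sl p ζ F) := by
  have h : (sl p ζ F) = fun y => ∫ s in tsupport ζ, ζ s * F (ins p s y) :=
    funext fun y => sl_eq_set hc y
  rw [h]
  apply continuous_parametric_integral_of_continuous _ hc
  exact (hζ.comp continuous_snd).mul (hF.comp ((continuous_ins p).comp
    (continuous_snd.prodMk continuous_fst)))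

lemma sl_hasFDerivAt (hζ : Continuous ζ) (hc : HasCompactSupport ζ) (hF : ContDiff ℝ 1 F)
    (y : Fin m → ℝ) :
    HasFDerivAt (sl p ζ F) (∫ s, ζ s • (fderiv ℝ F (ins p s y)).comp (insL p)) y ∧
    Integrable (fun s => ζ s • (fderiv ℝ F (ins p s y)).comp (insL p)) := by
  have hG : Continuous fun q : ℝ × (Fin m → ℝ) => ζ q.1 • (fderiv ℝ F (ins p q.1 q.2)).comp (insL p) := by
    have h1 : Continuous (fderiv ℝ F) := hF.continuous_fderiv (by norm_num)
    have h2 : Continuous fun q : ℝ × (Fin m → ℝ) => fderiv ℝ F (ins p q.1 q.2) :=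
      h1.comp (continuous_ins p)
    exact (hζ.comp continuous_fst).smul (h2.clm_comp continuous_const)
  have hG1 : ∀ y, Continuous fun s : ℝ => ζ s • (fderiv ℝ F (ins p s y)).comp (insL p) := fun y =>
    hG.comp (continuous_id.prodMk continuous_const)
  have hint : Integrable (fun s => ζ s • (fderiv ℝ F (ins p s y)).comp (insL p)) :=
    (hG1 y).integrable_of_hasCompactSupport hc.smul_right
  refine ⟨?_, hint⟩
  have hK : IsCompact (tsupport ζ ×ˢ Metric.closedBall y 1) := hc.prod (isCompact_closedBall y 1)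
  obtain ⟨C, hC⟩ := hK.exists_bound_of_continuousOn hG.continuousOn
  refine hasFDerivAt_integral_of_dominated_of_fderiv_le (s := Metric.closedBall y 1)
    (F := fun y s => ζ s * F (ins p s y))
    (F' := fun y s => ζ s • (fderiv ℝ F (ins p s y)).comp (insL p))
    (bound := (tsupport ζ).indicator fun _ => C)
    (Metric.closedBall_mem_nhds y one_pos) ?_ (sl_integrable hζ hc hF.continuous y)
    (hG1 y).aestronglyMeasurable ?_ ?_ ?_
  · exact Eventually.of_forall fun y =>
      (hζ.mul (hF.continuous.comp (continuous_ins_left p y))).aestronglyMeasurable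
  · refine Eventually.of_forall fun s z hz => ?_
    by_cases hs : s ∈ tsupport ζ
    · rw [Set.indicator_of_mem hs]
      exact hC (s, z) ⟨hs, hz⟩
    · rw [Set.indicator_of_notMem hs, image_eq_zero_of_notMem_tsupport hs]
      simp
  · rw [integrable_indicator_iff (isClosed_tsupport ζ).measurableSet]
    exact integrableOn_const hc.measure_lt_top.ne
  · refine Eventually.of_forall fun s z _ => ?_
    have h1 : HasFDerivAt (fun z => ins p s z) (insL p) z := by
      simp_rw [ins_eq]
      exact (insL p).hasFDerivAt.const_add _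
    have h2 := ((hF.differentiable (by norm_num) (ins p s z)).hasFDerivAt.comp z h1).const_mul (ζ s)
    exact h2

lemma pd_sl (hζ : Continuous ζ) (hc : HasCompactSupport ζ) (hF : ContDiff ℝ 1 F) (i : Fin m) :
    pd i (sl p ζ F) = sl p ζ (pd (p.succAbove i) F) := by
  funext y
  obtain ⟨h1, h2⟩ := sl_hasFDerivAt (p := p) hζ hc hF y
  unfold pd
  rw [h1.fderiv, ContinuousLinearMap.integral_apply h2]
  unfold sl
  congr 1; ext s
  simp [insL_single]

lemma sl_contDiff_one (hζ : Continuous ζ) (hc : HasCompactSupport ζ) (hF : ContDiff ℝ 1 F) :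
    ContDiff ℝ 1 (sl p ζ F) := by
  apply contDiff_one_of_pd
  · exact fun y => (sl_hasFDerivAt hζ hc hF y).1.differentiableAt
  · intro i
    rw [pd_sl hζ hc hF]
    exact sl_continuous hζ hc (continuous_pd hF)

lemma sl_contDiff_two (hζ : Continuous ζ) (hc : HasCompactSupport ζ) (hF : ContDiff ℝ 2 F) :
    ContDiff ℝ 2 (sl p ζ F) := by
  have hF1 : ContDiff ℝ 1 F := hF.of_le (by norm_num)
  apply contDiff_two_of_pd
  · exact (sl_contDiff_one hζ hc hF1).differentiable (by norm_num)
  · intro i
    rw [pd_sl hζ hc hF1]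
    exact (sl_contDiff_one hζ hc (contDiff_pd_one hF)).differentiable (by norm_num)
  · intro i j
    rw [pd_sl hζ hc hF1]
    exact continuous_pd (sl_contDiff_one hζ hc (contDiff_pd_one hF))

lemma sl_add {G : (Fin (m + 1) → ℝ) → ℝ} (hζ : Continuous ζ) (hc : HasCompactSupport ζ)
    (hF : Continuous F) (hG : Continuous G) (y : Fin m → ℝ) :
    sl p ζ (fun x => F x + G x) y = sl p ζ F y + sl p ζ G y := by
  unfold sl
  rw [← integral_add (sl_integrable hζ hc hF y) (sl_integrable hζ hc hG y)]
  congr 1; ext s; ring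

lemma sl_sub {G : (Fin (m + 1) → ℝ) → ℝ} (hζ : Continuous ζ) (hc : HasCompactSupport ζ)
    (hF : Continuous F) (hG : Continuous G) (y : Fin m → ℝ) :
    sl p ζ (fun x => F x - G x) y = sl p ζ F y - sl p ζ G y := by
  unfold sl
  rw [← integral_sub (sl_integrable hζ hc hF y) (sl_integrable hζ hc hG y)]
  congr 1; ext s; ring

lemma sl_sum {ι : Type*} (S : Finset ι) {G : ι → (Fin (m + 1) → ℝ) → ℝ} (hζ : Continuous ζ)
    (hc : HasCompactSupport ζ) (hG : ∀ i, Continuous (G i)) (y : Fin m → ℝ) :
    sl p ζ (fun x => ∑ i ∈ S, G i x) y = ∑ i ∈ S, sl p ζ (G i) y := by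
  unfold sl
  rw [← integral_finset_sum S fun i _ => sl_integrable hζ hc (hG i) y]
  congr 1; ext s; rw [Finset.mul_sum]

/-- Integration by parts along the line. -/
lemma sl_pd (hζ : ContDiff ℝ 1 ζ) (hc : HasCompactSupport ζ) (hF : ContDiff ℝ 1 F)
    (y : Fin m → ℝ) : sl p ζ (pd p F) y = - sl p (deriv ζ) F y := by
  have hd : ∀ s, HasDerivAt (fun s => F (ins p s y)) (pd p F (ins p s y)) s := by
    intro s
    have h1 : HasDerivAt (fun s : ℝ => ins p s y) (Pi.single p 1) s := by
      simp_rw [ins_eq]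
      simpa using ((hasDerivAt_id s).smul_const (Pi.single p (1:ℝ))).add_const (insL p y)
    exact (hF.differentiable (by norm_num) (ins p s y)).hasFDerivAt.comp_hasDerivAt s h1
  have hc' : HasCompactSupport (deriv ζ) := hc.deriv
  have hζ' : Continuous (deriv ζ) := hζ.continuous_deriv (by norm_num)
  exact integral_mul_deriv_eq_deriv_mul_of_integrable
    (fun s _ => (hζ.differentiable (by norm_num) s).hasDerivAt) (fun s _ => hd s)
    (sl_integrable hζ.continuous hc (continuous_pd hF) y)
    (sl_integrable hζ' hc' hF.continuous y) (sl_integrable hζ.continuous hc hF.continuous y)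

end Vale.Agent.P134.H160
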